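import Vale.Agent.H26.QF.Arith

/-!
# Division with remainder and shifts as word functions
-/

namespace QF.Lib

open QF

/-- new quotient -/
def dvQ (W q r b c : ℕ) : ℕ :=
  if b - r ≤ (r + c) % 2 ^ W then ((q + q) % 2 ^ W + 1) % 2 ^ W else (q + q) % 2 ^ W

/-- new remainder -/
def dvR (W r b c : ℕ) : ℕ :=
  if b - r ≤ (r + c) % 2 ^ W then (r + c) % 2 ^ W - (b - r) else (r + (r + c) % 2 ^ W) % 2 ^ W

/-- the step of restoring division, state `(q, r, a, b)` and bit `c` -/
def dvStep (W : ℕ) (s : Fin 4 → ℕ) (c : ℕ) : Fin 4 → ℕ :=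
  ![dvQ W (s 0) (s 1) (s 3) c, dvR W (s 1) (s 3) c, s 2, s 3]

theorem dvStep_comp : CompV (k := 4) (l := 4) (fun _ W e s =>
    dvStep W s (s 2 / 2 ^ (W - 1 - e.getD 0 0) % 2)) := by
  classical
  have hc : Comp (k := 4) (fun _ W e s => s 2 / 2 ^ (W - 1 - e.getD 0 0) % 2) :=
    Comp.par (Comp.shrIx (.sub (.sub .w (.lit 1)) (.var 0)) (Comp.proj 2))
  have hu : Comp (k := 4) (fun _ W e s => (s 1 + s 2 / 2 ^ (W - 1 - e.getD 0 0) % 2) % 2 ^ W) :=
    Comp.addm (Comp.proj 1) hc
  have ht : Comp (k := 4) (fun _ _ _ s => s 3 - s 1) := Comp.sub (Comp.proj 3) (Comp.proj 1)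
  have hq : Comp (k := 4) (fun _ W _ s => (s 0 + s 0) % 2 ^ W) :=
    Comp.addm (Comp.proj 0) (Comp.proj 0)
  refine CompV.mk (fun j => ?_)
  fin_cases j
  · exact Comp.ifp (CompP.le ht hu) (Comp.addm hq Comp.one) hq
  · exact Comp.ifp (CompP.le ht hu) (Comp.sub hu ht) (Comp.addm (Comp.proj 1) hu)
  · exact Comp.proj 2
  · exact Comp.proj 3

theorem dv_inv {W a b : ℕ} (ha : a < 2 ^ W) (hb : b < 2 ^ W) (hb0 : 0 < b) (e : List ℕ) :
    ∀ N ≤ W, rounds (fun i (s : Fin 4 → ℕ) =>
      dvStep W s (s 2 / 2 ^ (W - 1 - (i :: e).getD 0 0) % 2)) N ![0, 0, a, b] =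
      ![a / 2 ^ (W - N) / b, a / 2 ^ (W - N) % b, a, b] := by
  intro N
  induction N with
  | zero =>
    intro _
    rw [rounds_zero, Nat.sub_zero, Nat.div_eq_of_lt ha, Nat.zero_div, Nat.zero_mod]
  | succ N ih =>
    intro hN
    rw [rounds_succ, ih (by omega), List.getD_cons_zero]
    set A := a / 2 ^ (W - N) with hA
    set c := a / 2 ^ (W - 1 - N) % 2 with hc
    have hc2 : c < 2 := Nat.mod_lt _ (by norm_num)
    have hA' : a / 2 ^ (W - (N + 1)) = 2 * A + c := by
      have h1 : W - (N + 1) = W - 1 - N := by omega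
      have h2 : a / 2 ^ (W - N) = a / 2 ^ (W - 1 - N) / 2 := by
        rw [Nat.div_div_eq_div_mul, ← pow_succ]; congr 2; omega
      rw [h1, hA, h2, hc]
      omega
    have hr : A % b < b := Nat.mod_lt _ hb0
    have hdm := Nat.div_add_mod A b
    have hsum : A % b + c < 2 ^ W := by omega
    have hAW : 2 * A + c < 2 ^ W := by
      rw [← hA']
      exact lt_of_le_of_lt (Nat.div_le_self _ _) ha
    have hqA : A / b ≤ A := Nat.div_le_self _ _
    show ![dvQ W (A / b) (A % b) b c, dvR W (A % b) b c, a, b] = _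
    rw [hA']
    unfold dvQ dvR
    rw [Nat.mod_eq_of_lt hsum, Nat.mod_eq_of_lt (show A / b + A / b < 2 ^ W by omega)]
    by_cases hcmp : b - A % b ≤ A % b + c
    · rw [if_pos hcmp, if_pos hcmp]
      have h1 : 2 * A + c = b * (2 * (A / b) + 1) + (A % b + c - (b - A % b)) := by
        have : b * (2 * (A / b) + 1) = 2 * (b * (A / b)) + b := by ring
        rw [this]; omega
      have h2 : A % b + c - (b - A % b) < b := by omega
      have hq1 : (2 * A + c) / b = 2 * (A / b) + 1 := by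
        rw [h1, Nat.mul_add_div hb0, Nat.div_eq_of_lt h2, add_zero]
      have hr1 : (2 * A + c) % b = A % b + c - (b - A % b) := by
        rw [h1, Nat.mul_add_mod, Nat.mod_eq_of_lt h2]
      rw [hq1, hr1]
      have h3 : 2 * (A / b) + 1 ≤ 2 * A + c := by
        rw [← hq1]; exact Nat.div_le_self _ _
      rw [Nat.mod_eq_of_lt (show A / b + A / b + 1 < 2 ^ W by omega)]
      congr 1
      ring
    · rw [if_neg hcmp, if_neg hcmp]
      have h1 : 2 * A + c = b * (2 * (A / b)) + (A % b + (A % b + c)) := by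
        have : b * (2 * (A / b)) = 2 * (b * (A / b)) := by ring
        rw [this]; omega
      have h2 : A % b + (A % b + c) < b := by omega
      have hq1 : (2 * A + c) / b = 2 * (A / b) := by
        rw [h1, Nat.mul_add_div hb0, Nat.div_eq_of_lt h2, add_zero]
      have hr1 : (2 * A + c) % b = A % b + (A % b + c) := by
        rw [h1, Nat.mul_add_mod, Nat.mod_eq_of_lt h2]
      rw [hq1, hr1, Nat.mod_eq_of_lt (show A % b + (A % b + c) < 2 ^ W by omega)]
      congr 1
      ring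

theorem divmodV : CompV (k := 2) (l := 4) (fun _ W e x =>
    rounds (fun i (s : Fin 4 → ℕ) =>
      dvStep W s (s 2 / 2 ^ (W - 1 - (i :: e).getD 0 0) % 2)) W ![0, 0, x 0, x 1]) := by
  have hinit : CompV (k := 2) (l := 4) (fun _ _ _ x => ![0, 0, x 0, x 1]) := by
    refine CompV.mk (fun j => ?_)
    fin_cases j
    exacts [Comp.zero, Comp.zero, Comp.proj 0, Comp.proj 1]
  exact CompV.comp (CompV.iter .w dvStep_comp) hinit

theorem Comp.divFn : Comp (k := 2) (fun _ _ _ x => x 0 / x 1) := by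
  classical
  refine (Comp.ifp (P := fun _ _ _ x => x 1 = 0) (CompP.eq (Comp.proj 1) Comp.zero) Comp.zero
    (CompV.get divmodV 0)).congr (fun n W e x hx => ?_)
  by_cases h : x 1 = 0
  · simp [h]
  · rw [if_neg h, dv_inv (hx.2 0) (hx.2 1) (Nat.pos_of_ne_zero h) e W le_rfl]
    simp

theorem Comp.modFn : Comp (k := 2) (fun _ _ _ x => x 0 % x 1) := by
  classical
  refine (Comp.ifp (P := fun _ _ _ x => x 1 = 0) (CompP.eq (Comp.proj 1) Comp.zero)
    (Comp.proj 0) (CompV.get divmodV 1)).congr (fun n W e x hx => ?_)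
  by_cases h : x 1 = 0
  · simp [h]
  · rw [if_neg h, dv_inv (hx.2 0) (hx.2 1) (Nat.pos_of_ne_zero h) e W le_rfl]
    simp

variable {k : ℕ}

theorem Comp.div {f g : Fn k} (hf : Comp f) (hg : Comp g) :
    Comp (fun n W e x => f n W e x / g n W e x) := Comp.comp₂ Comp.divFn hf hg

theorem Comp.mod {f g : Fn k} (hf : Comp f) (hg : Comp g) :
    Comp (fun n W e x => f n W e x % g n W e x) := Comp.comp₂ Comp.modFn hf hg

end QF.Lib
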