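import Vale.Agent.H7.QF.DivMod

/-!
# Domain-restricted word functions (`OnD`) on top of `QF.Lib.Comp`
-/

namespace QF

open QF.Lib

/-- `f` is computed by a word program on the domain `D` -/
def OnD {k : ℕ} (D : ℕ → ℕ → (Fin k → ℕ) → Prop) (f : ℕ → ℕ → (Fin k → ℕ) → ℕ) : Prop :=
  ∃ G : Fn k, Comp G ∧ ∀ n W e x, Wd W x → D n W x → G n W e x = f n W x

namespace OnD

variable {k l : ℕ} {D : ℕ → ℕ → (Fin k → ℕ) → Prop} {f g c : ℕ → ℕ → (Fin k → ℕ) → ℕ}

theorem congr (hf : OnD D f) (h : ∀ n W x, D n W x → f n W x = g n W x) : OnD D g := by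
  obtain ⟨f', h1, h2⟩ := hf
  exact ⟨f', h1, fun n W e x hw hx => (h2 n W e x hw hx).trans (h n W x hx)⟩

theorem mono {D' : ℕ → ℕ → (Fin k → ℕ) → Prop} (hf : OnD D f)
    (h : ∀ n W x, D' n W x → D n W x) : OnD D' f := by
  obtain ⟨f', h1, h2⟩ := hf
  exact ⟨f', h1, fun n W e x hw hx => h2 n W e x hw (h n W x hx)⟩

theorem proj (i : Fin k) : OnD D (fun _ _ x => x i) :=
  ⟨_, Comp.proj i, fun _ _ _ _ _ _ => rfl⟩

theorem const (a : Ix) (ha : a.Cl) (h : ∀ n W x, D n W x → a.ev n W [] < 2 ^ W) :
    OnD D (fun n W _ => a.ev n W []) :=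
  ⟨_, Comp.ix a, fun n W e x _ hx => by rw [ha n W e]; exact Nat.mod_eq_of_lt (h n W x hx)⟩

theorem comp {G : ℕ → ℕ → (Fin l → ℕ) → ℕ} {D' : ℕ → ℕ → (Fin l → ℕ) → Prop} (hG : OnD D' G)
    {f : Fin l → ℕ → ℕ → (Fin k → ℕ) → ℕ} (hf : ∀ i, OnD D (f i))
    (h : ∀ n W x, D n W x → D' n W (fun i => f i n W x)) :
    OnD D (fun n W x => G n W (fun i => f i n W x)) := by
  obtain ⟨G', h1, h2⟩ := hG
  choose f' h3 h4 using hf
  refine ⟨_, Comp.comp h1 h3, fun n W e x hw hx => ?_⟩
  have h5 : (fun i => f' i n W e x) = fun i => f i n W x := funext fun i => h4 i n W e x hw hx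
  have h6 : Wd W (fun i => f' i n W e x) := ⟨hw.1, fun i => (h3 i).lt hw⟩
  rw [h5] at h6 ⊢
  exact h2 n W e _ h6 (h n W x hx)

theorem add (hf : OnD D f) (hg : OnD D g) (h : ∀ n W x, D n W x → f n W x + g n W x < 2 ^ W) :
    OnD D (fun n W x => f n W x + g n W x) := by
  obtain ⟨f', h1, h2⟩ := hf
  obtain ⟨g', h3, h4⟩ := hg
  refine ⟨_, Comp.addm h1 h3, fun n W e x hw hx => ?_⟩
  rw [h2 n W e x hw hx, h4 n W e x hw hx]
  exact Nat.mod_eq_of_lt (h n W x hx)

theorem mul (hf : OnD D f) (hg : OnD D g) (h : ∀ n W x, D n W x → f n W x * g n W x < 2 ^ W) :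
    OnD D (fun n W x => f n W x * g n W x) := by
  obtain ⟨f', h1, h2⟩ := hf
  obtain ⟨g', h3, h4⟩ := hg
  refine ⟨_, Comp.mulm h1 h3, fun n W e x hw hx => ?_⟩
  rw [h2 n W e x hw hx, h4 n W e x hw hx]
  exact Nat.mod_eq_of_lt (h n W x hx)

/-- left shift by a word -/
theorem shlFn : Comp (k := 2) (fun _ W _ x => x 0 * 2 ^ min W (x 1) % 2 ^ W) := by
  classical
  have hstep : CompV (k := 2) (l := 2) (fun _ W e s =>
      ![if e.getD 0 0 % 2 ^ W < s 1 then (s 0 + s 0) % 2 ^ W else s 0, s 1]) := by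
    refine CompV.mk (fun j => ?_)
    fin_cases j
    · exact Comp.ifp (CompP.lt (Comp.ctr 0) (Comp.proj 1))
        (Comp.addm (Comp.proj 0) (Comp.proj 0)) (Comp.proj 0)
    · exact Comp.proj 1
  refine (CompV.get (CompV.iter .w hstep) 0).congr (fun n W e x hx => ?_)
  have key : ∀ N ≤ W, rounds (fun i (s : Fin 2 → ℕ) =>
      ![if (i :: e).getD 0 0 % 2 ^ W < s 1 then (s 0 + s 0) % 2 ^ W else s 0, s 1]) N x =
      ![x 0 * 2 ^ min N (x 1) % 2 ^ W, x 1] := by
    intro N
    induction N with
    | zero =>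
      intro _
      rw [rounds_zero]
      funext j
      fin_cases j
      · simp [Nat.mod_eq_of_lt (hx.2 0)]
      · rfl
    | succ N ih =>
      intro hN
      rw [rounds_succ, ih (by omega)]
      have hNW : N % 2 ^ W = N := Nat.mod_eq_of_lt
        (lt_of_lt_of_le (Nat.lt_two_pow_self) (Nat.pow_le_pow_right (by norm_num) (by omega)))
      funext j
      fin_cases j
      · show (if N % 2 ^ W < x 1 then (x 0 * 2 ^ min N (x 1) % 2 ^ W +
          x 0 * 2 ^ min N (x 1) % 2 ^ W) % 2 ^ W else x 0 * 2 ^ min N (x 1) % 2 ^ W) =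
          x 0 * 2 ^ min (N + 1) (x 1) % 2 ^ W
        rw [hNW]
        split_ifs with h
        · rw [← Nat.add_mod, Nat.min_eq_left h.le, Nat.min_eq_left (by omega), pow_succ]
          congr 1; ring
        · rw [Nat.min_eq_right (by omega), Nat.min_eq_right (by omega)]
      · rfl
  have := congrFun (key W le_rfl) 0
  exact this

theorem shl (hf : OnD D f) (hg : OnD D g) (h : ∀ n W x, D n W x → f n W x * 2 ^ g n W x < 2 ^ W) :
    OnD D (fun n W x => f n W x * 2 ^ g n W x) := by
  obtain ⟨f', h1, h2⟩ := hf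
  obtain ⟨g', h3, h4⟩ := hg
  refine ⟨_, Comp.comp₂ shlFn h1 h3, fun n W e x hw hx => ?_⟩
  show f' n W e x * 2 ^ min W (g' n W e x) % 2 ^ W = _
  rw [h2 n W e x hw hx, h4 n W e x hw hx]
  have h5 := h n W x hx
  rcases Nat.lt_or_ge W (g n W x) with h6 | h6
  · have h7 : f n W x = 0 := by
      by_contra h8
      have : 2 ^ W < 2 ^ g n W x := Nat.pow_lt_pow_right (by norm_num) h6
      have : 1 * 2 ^ g n W x ≤ f n W x * 2 ^ g n W x :=
        Nat.mul_le_mul_right _ (Nat.one_le_iff_ne_zero.mpr h8)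
      omega
    rw [h7]; simp [h7]
  · rw [Nat.min_eq_right h6, Nat.mod_eq_of_lt h5]

theorem sub (hf : OnD D f) (hg : OnD D g) : OnD D (fun n W x => f n W x - g n W x) := by
  obtain ⟨f', h1, h2⟩ := hf
  obtain ⟨g', h3, h4⟩ := hg
  refine ⟨_, Comp.sub h1 h3, fun n W e x hw hx => ?_⟩
  rw [h2 n W e x hw hx, h4 n W e x hw hx]

theorem div (hf : OnD D f) (hg : OnD D g) : OnD D (fun n W x => f n W x / g n W x) := by
  obtain ⟨f', h1, h2⟩ := hf
  obtain ⟨g', h3, h4⟩ := hg
  refine ⟨_, Comp.div h1 h3, fun n W e x hw hx => ?_⟩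
  rw [h2 n W e x hw hx, h4 n W e x hw hx]

theorem mod (hf : OnD D f) (hg : OnD D g) : OnD D (fun n W x => f n W x % g n W x) := by
  obtain ⟨f', h1, h2⟩ := hf
  obtain ⟨g', h3, h4⟩ := hg
  refine ⟨_, Comp.mod h1 h3, fun n W e x hw hx => ?_⟩
  rw [h2 n W e x hw hx, h4 n W e x hw hx]

theorem lt (hf : OnD D f) (hg : OnD D g) :
    OnD D (fun n W x => if f n W x < g n W x then 1 else 0) := by
  classical
  obtain ⟨f', h1, h2⟩ := hf
  obtain ⟨g', h3, h4⟩ := hg
  refine ⟨_, (CompP.lt h1 h3).toComp, fun n W e x hw hx => ?_⟩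
  rw [h2 n W e x hw hx, h4 n W e x hw hx]

/-- case distinction on a decidable predicate with computable indicator -/
theorem ite {p : ℕ → ℕ → (Fin k → ℕ) → Prop} [∀ n W x, Decidable (p n W x)]
    (hp : OnD D (fun n W x => if p n W x then 1 else 0))
    (hf : OnD (fun n W x => D n W x ∧ p n W x) f)
    (hg : OnD (fun n W x => D n W x ∧ ¬ p n W x) g) :
    OnD D (fun n W x => if p n W x then f n W x else g n W x) := by
  obtain ⟨p', h0, h0'⟩ := hp
  obtain ⟨f', h1, h2⟩ := hf
  obtain ⟨g', h3, h4⟩ := hg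
  refine ⟨_, Comp.ite h0 h1 h3, fun n W e x hw hx => ?_⟩
  have this : p' n W e x = if p n W x then 1 else 0 := h0' n W e x hw hx
  show (if p' n W e x = 0 then g' n W e x else f' n W e x) = if p n W x then f n W x else g n W x
  by_cases hpx : p n W x
  · rw [if_pos hpx] at this
    rw [this, if_neg (by norm_num), if_pos hpx]
    exact h2 n W e x hw ⟨hx, hpx⟩
  · rw [if_neg hpx] at this
    rw [this, if_pos rfl, if_neg hpx]
    exact h4 n W e x hw ⟨hx, hpx⟩

/-- iteration of a tuple-valued map with invariant `I` -/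
theorem iter (N : Ix) (hN : N.Cl) {F : ℕ → ℕ → ℕ → (Fin k → ℕ) → (Fin k → ℕ)}
    {I : ℕ → ℕ → ℕ → (Fin k → ℕ) → Prop}
    (hF : ∀ j, OnD (k := k + 1) (fun n W y => y 0 < N.ev n W [] ∧ I n W (y 0) (Fin.tail y))
      (fun n W y => F n W (y 0) (Fin.tail y) j))
    (hNW : ∀ n W x, D n W x → N.ev n W [] ≤ 2 ^ W)
    (h0 : ∀ n W x, D n W x → I n W 0 x)
    (hs : ∀ n W i s, i < N.ev n W [] → I n W i s → I n W (i + 1) (F n W i s)) (j : Fin k) :
    OnD D (fun n W x => (List.range (N.ev n W [])).foldl (fun s i => F n W i s) x j) := by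
  choose F' h1 h2 using hF
  have hstep : CompV (k := k) (l := k) (fun n W e s j =>
      F' j n W e (Fin.cons (e.getD 0 0 % 2 ^ W) s)) := by
    refine CompV.mk (fun j => ?_)
    have h3 : ∀ i : Fin (k + 1), Comp (k := k) ((Fin.cons (fun _ W e _ => e.getD 0 0 % 2 ^ W)
        (fun i => fun _ _ _ x => x i) : Fin (k + 1) → Fn k) i) := by
      intro i
      refine Fin.cases ?_ (fun i => ?_) i
      · exact Comp.ctr 0
      · exact Comp.proj i
    refine (Comp.comp (h1 j) h3).congr (fun n W e x _ => ?_)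
    congr 1
    funext i
    refine Fin.cases ?_ (fun i => ?_) i <;> simp
  refine ⟨_, CompV.get (CompV.iter N hstep) j, fun n W e x hw hx => ?_⟩
  have key : ∀ m ≤ N.ev n W [],
      rounds (fun i (s : Fin k → ℕ) => fun j => F' j n W (i :: e)
        (Fin.cons ((i :: e).getD 0 0 % 2 ^ W) s)) m x
        = (List.range m).foldl (fun s i => F n W i s) x ∧
      Wd W ((List.range m).foldl (fun s i => F n W i s) x) ∧
      I n W m ((List.range m).foldl (fun s i => F n W i s) x) := by
    intro m
    induction m with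
    | zero => intro _; exact ⟨rfl, hw, h0 n W x hx⟩
    | succ m ih =>
      intro hm
      obtain ⟨h3, h5, h4⟩ := ih (by omega)
      rw [rounds_succ]
      simp only [List.range_succ, List.foldl_append, List.foldl_cons, List.foldl_nil]
      rw [h3]
      have hmW : m % 2 ^ W = m := Nat.mod_eq_of_lt (by have := hNW n W x hx; omega)
      have hwc : Wd W (Fin.cons m ((List.range m).foldl (fun s i => F n W i s) x)
          : Fin (k + 1) → ℕ) := by
        refine ⟨hw.1, fun i => ?_⟩
        refine Fin.cases ?_ (fun i => ?_) i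
        · have := hNW n W x hx
          simp only [Fin.cons_zero]; omega
        · simpa using h5.2 i
      have h6 : (fun j => F' j n W (m :: e) (Fin.cons ((m :: e).getD 0 0 % 2 ^ W)
          ((List.range m).foldl (fun s i => F n W i s) x)))
          = F n W m ((List.range m).foldl (fun s i => F n W i s) x) := by
        funext j
        rw [List.getD_cons_zero, hmW, h2 j n W _ _ hwc (by simpa using ⟨by omega, h4⟩)]
        simp
      refine ⟨h6, ?_, hs n W m _ (by omega) h4⟩
      rw [← h6]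
      refine ⟨hw.1, fun j => (h1 j).lt ?_⟩
      rw [List.getD_cons_zero, hmW]
      exact hwc
  have := congrFun (key _ le_rfl).1 j
  rw [hN n W e]
  exact this

/-! ### Boolean tests: computable indicator functions -/

section tests

variable {p q : ℕ → ℕ → (Fin k → ℕ) → Prop} [∀ n W x, Decidable (p n W x)]
  [∀ n W x, Decidable (q n W x)]

/-- constants given by closed index expressions, small numerals -/
theorem lit (a : ℕ) (h : ∀ n W x, D n W x → a < 2 ^ W) : OnD D (fun _ _ _ => a) :=
  const (.lit a) (fun _ _ _ => rfl) h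

theorem zero : OnD D (fun _ _ _ => 0) := lit 0 (fun _ _ _ _ => by positivity)

theorem one (h : ∀ n W x, D n W x → 1 ≤ W) : OnD D (fun _ _ _ => 1) :=
  lit 1 (fun n W x hx => by
    calc 1 < 2 ^ 1 := by norm_num
      _ ≤ 2 ^ W := Nat.pow_le_pow_right (by norm_num) (h n W x hx))

theorem tAnd (hp : OnD D (fun n W x => if p n W x then 1 else 0))
    (hq : OnD (fun n W x => D n W x ∧ p n W x) (fun n W x => if q n W x then 1 else 0)) :
    OnD D (fun n W x => if p n W x ∧ q n W x then 1 else 0) := by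
  refine (ite (p := p) hp hq zero).congr fun n W x _ => ?_
  by_cases h1 : p n W x <;> by_cases h2 : q n W x <;> simp [h1, h2]

theorem tNot (h1 : ∀ n W x, D n W x → 1 ≤ W)
    (hp : OnD D (fun n W x => if p n W x then 1 else 0)) :
    OnD D (fun n W x => if ¬ p n W x then 1 else 0) := by
  refine (sub (one h1) hp).congr fun n W x _ => ?_
  by_cases h1 : p n W x <;> simp [h1]

theorem tOr (h1 : ∀ n W x, D n W x → 1 ≤ W)
    (hp : OnD D (fun n W x => if p n W x then 1 else 0))
    (hq : OnD (fun n W x => D n W x ∧ ¬ p n W x) (fun n W x => if q n W x then 1 else 0)) :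
    OnD D (fun n W x => if p n W x ∨ q n W x then 1 else 0) := by
  refine (ite (p := p) hp (one fun n W x h => h1 n W x h.1) hq).congr fun n W x _ => ?_
  by_cases h1 : p n W x <;> by_cases h2 : q n W x <;> simp [h1, h2]

theorem tImp (h1 : ∀ n W x, D n W x → 1 ≤ W)
    (hp : OnD D (fun n W x => if p n W x then 1 else 0))
    (hq : OnD (fun n W x => D n W x ∧ p n W x) (fun n W x => if q n W x then 1 else 0)) :
    OnD D (fun n W x => if (p n W x → q n W x) then 1 else 0) := by
  refine (ite (p := p) hp hq (one fun n W x h => h1 n W x h.1)).congr fun n W x _ => ?_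
  by_cases h1 : p n W x <;> by_cases h2 : q n W x <;> simp [h1, h2]

theorem tLe (h1 : ∀ n W x, D n W x → 1 ≤ W) (hf : OnD D f) (hg : OnD D g) :
    OnD D (fun n W x => if f n W x ≤ g n W x then 1 else 0) := by
  refine (tNot (p := fun n W x => g n W x < f n W x) h1 (lt hg hf)).congr fun n W x _ => ?_
  simp only [not_lt]

theorem tEq (h1 : ∀ n W x, D n W x → 1 ≤ W) (hf : OnD D f) (hg : OnD D g) :
    OnD D (fun n W x => if f n W x = g n W x then 1 else 0) := by
  refine (tAnd (p := fun n W x => f n W x ≤ g n W x) (q := fun n W x => g n W x ≤ f n W x)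
    (tLe h1 hf hg) (tLe (fun n W x h => h1 n W x h.1) (hg.mono fun _ _ _ h => h.1)
      (hf.mono fun _ _ _ h => h.1))).congr fun n W x _ => ?_
  simp only [le_antisymm_iff]

end tests

/-- iteration with one accumulator and parameters -/
theorem fold (N : Ix) (hN : N.Cl) {F : ℕ → ℕ → ℕ → ℕ → (Fin k → ℕ) → ℕ}
    {I : ℕ → ℕ → ℕ → ℕ → (Fin k → ℕ) → Prop} {init : ℕ → ℕ → (Fin k → ℕ) → ℕ}
    (hF : OnD (k := k + 2) (fun n W y => y 0 < N.ev n W [] ∧
        I n W (y 0) (y 1) (fun i => y i.succ.succ))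
      (fun n W y => F n W (y 0) (y 1) (fun i => y i.succ.succ)))
    (hNW : ∀ n W x, D n W x → N.ev n W [] ≤ 2 ^ W)
    (hi : OnD D init) (h0 : ∀ n W x, D n W x → I n W 0 (init n W x) x)
    (hs : ∀ n W x i a, i < N.ev n W [] → I n W i a x → I n W (i + 1) (F n W i a x) x) :
    OnD D (fun n W x => (List.range (N.ev n W [])).foldl (fun a i => F n W i a x)
      (init n W x)) := by
  have h := iter (k := k + 1) (D := fun n W s => N.ev n W [] ≤ 2 ^ W ∧ I n W 0 (s 0) (Fin.tail s))
    N hN (F := fun n W i s => Fin.cons (F n W i (s 0) (Fin.tail s)) (Fin.tail s))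
    (I := fun n W i s => I n W i (s 0) (Fin.tail s)) (by
      intro j
      refine Fin.cases ?_ (fun j => ?_) j
      · simp only [Fin.cons_zero]
        exact hF
      · simp only [Fin.cons_succ]
        exact proj j.succ.succ) (fun n W x h => h.1) (fun n W x h => h.2)
    (by
      intro n W i s hi h
      simp only [Fin.cons_zero, Fin.tail_cons]
      exact hs n W _ i _ hi h) 0
  have h2 := comp (D := D) h (f := Fin.cons init (fun i => fun _ _ x => x i)) (by
    intro i
    refine Fin.cases ?_ (fun j => ?_) i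
    · simpa using hi
    · simpa using proj j) (by
      intro n W x hx
      refine ⟨hNW n W x hx, ?_⟩
      exact h0 n W x hx)
  refine h2.congr fun n W x _ => ?_
  have key : ∀ m, (List.range m).foldl
      (fun (s : Fin (k + 1) → ℕ) i => (Fin.cons (F n W i (s 0) (Fin.tail s)) (Fin.tail s)
        : Fin (k + 1) → ℕ))
      (fun i => (Fin.cons init (fun i => fun _ _ x => x i) :
        Fin (k + 1) → ℕ → ℕ → (Fin k → ℕ) → ℕ) i n W x)
      = Fin.cons ((List.range m).foldl (fun a i => F n W i a x) (init n W x)) x := by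
    intro m
    induction m with
    | zero =>
      simp only [List.range_zero, List.foldl_nil]
      funext i
      refine Fin.cases ?_ (fun j => ?_) i <;> simp
    | succ m ih =>
      rw [List.range_succ, List.foldl_append, List.foldl_append, ih]
      simp
  rw [key]
  simp

/-- computable bounded universal quantifier -/
theorem all (N : Ix) (hN : N.Cl) {P : ℕ → ℕ → ℕ → (Fin k → ℕ) → Prop}
    [∀ n W i x, Decidable (P n W i x)]
    (h1 : ∀ n W x, D n W x → 1 ≤ W)
    (hNW : ∀ n W x, D n W x → N.ev n W [] ≤ 2 ^ W)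
    (hP : OnD (k := k + 1) (fun n W y => y 0 < N.ev n W [] ∧ D n W (Fin.tail y))
      (fun n W y => if P n W (y 0) (Fin.tail y) then 1 else 0)) :
    OnD D (fun n W x => if (∀ i < N.ev n W [], P n W i x) then 1 else 0) := by
  have h := fold (D := D) N hN (F := fun n W i a x => if P n W i x then a else 0)
    (I := fun n W _ _ x => D n W x) (init := fun _ _ _ => 1) (by
      refine ite (p := fun n W y => P n W (y 0) (fun i : Fin k => y i.succ.succ)) ?_ (proj 1) zero
      have := comp (D := fun n W y => y 0 < N.ev n W [] ∧ D n W (fun i : Fin k => y i.succ.succ))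
        hP (f := Fin.cons (fun _ _ y => y 0) (fun i : Fin k => fun _ _ (y : Fin (k+2) → ℕ) =>
          y i.succ.succ)) (by
          intro i
          refine Fin.cases ?_ (fun j => ?_) i
          · simpa using proj 0
          · simpa using proj j.succ.succ) (by
          intro n W y hy
          refine ⟨hy.1, ?_⟩
          exact hy.2)
      exact this) hNW (one h1) (fun n W x h => h) (fun n W x i a _ h => h)
  refine h.congr fun n W x _ => ?_
  have key : ∀ m, (List.range m).foldl (fun a i => if P n W i x then a else 0) 1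
      = if (∀ i < m, P n W i x) then 1 else 0 := by
    intro m
    induction m with
    | zero => simp
    | succ m ih =>
      rw [List.range_succ, List.foldl_append, ih, List.foldl_cons, List.foldl_nil]
      by_cases hm : P n W m x
      · rw [if_pos hm]
        congr 1
        rw [eq_iff_iff]
        constructor
        · intro h i hi
          rcases Nat.lt_succ_iff_lt_or_eq.mp hi with h' | h'
          · exact h i h'
          · exact h' ▸ hm
        · intro h i hi; exact h i (by omega)
      · rw [if_neg hm, if_neg]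
        intro h; exact hm (h m (by omega))
  exact key _

end OnD

end QF
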