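import Vale.Agent.H7.QF.Lib
import Vale.Agent.H7.AKS.Test

/-!
# Primality as a word function (AKS)
-/

namespace QF.H7

open QF Vale.Agent.H7.AKS Finset

/-- bound for the moduli -/
def Rv (n : ℕ) : ℕ := (2 * n) ^ 8

/-- digit size -/
def Kv (n : ℕ) : ℕ := 20 * n + 1

/-- word length bound -/
def WB (n : ℕ) : ℕ := 4 * Kv n * (Rv n + 2) + n * n + 8

def RI : Ix := .mul (.mul (.mul (.mul (.lit 2) .n) (.mul (.lit 2) .n))
    (.mul (.mul (.lit 2) .n) (.mul (.lit 2) .n)))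
  (.mul (.mul (.mul (.lit 2) .n) (.mul (.lit 2) .n))
    (.mul (.mul (.lit 2) .n) (.mul (.lit 2) .n)))

def KI : Ix := .add (.mul (.lit 20) .n) (.lit 1)

lemma RI_cl : RI.Cl := fun _ _ _ => rfl
lemma KI_cl : KI.Cl := fun _ _ _ => rfl
lemma RI_ev (n W : ℕ) (e : List ℕ) : RI.ev n W e = Rv n := by
  simp only [RI, Ix.ev, Rv]; ring
lemma KI_ev (n W : ℕ) (e : List ℕ) : KI.ev n W e = Kv n := rfl

lemma Rv_lt (n : ℕ) : Rv n < 2 ^ Kv n := by
  have h1 : 2 * n ≤ 2 ^ n := by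
    rcases Nat.eq_zero_or_pos n with h | h
    · subst h; norm_num
    · exact two_mul_le_two_pow h
  calc Rv n ≤ (2 ^ n) ^ 8 := Nat.pow_le_pow_left h1 8
    _ = 2 ^ (n * 8) := by rw [← pow_mul]
    _ < 2 ^ Kv n := Nat.pow_lt_pow_right (by norm_num) (by unfold Kv; omega)

lemma RRvv_lt {n v : ℕ} (hv : v < 2 ^ n) : Rv n * Rv n * (v * v) < 2 ^ Kv n := by
  have h1 : 2 * n ≤ 2 ^ n := by
    rcases Nat.eq_zero_or_pos n with h | h
    · subst h; norm_num
    · exact two_mul_le_two_pow h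
  have h2 : Rv n ≤ 2 ^ (n * 8) := by
    calc Rv n ≤ (2 ^ n) ^ 8 := Nat.pow_le_pow_left h1 8
      _ = 2 ^ (n * 8) := by rw [← pow_mul]
  calc Rv n * Rv n * (v * v) ≤ 2 ^ (n * 8) * 2 ^ (n * 8) * (2 ^ n * 2 ^ n) :=
        Nat.mul_le_mul (Nat.mul_le_mul h2 h2) (Nat.mul_le_mul hv.le hv.le)
    _ = 2 ^ (n * 18) := by rw [← pow_add, ← pow_add, ← pow_add]; congr 1; ring
    _ < 2 ^ Kv n := Nat.pow_lt_pow_right (by norm_num) (by unfold Kv; omega)

lemma n_lt_K (n : ℕ) : n < Kv n := by unfold Kv; omega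

section

variable {k : ℕ} {D : ℕ → ℕ → (Fin k → ℕ) → Prop}

lemma W_pos (h : ∀ n W x, D n W x → WB n ≤ W) : ∀ n W x, D n W x → 1 ≤ W := by
  intro n W x hx
  have := h n W x hx
  unfold WB at this; omega

/-- exponents up to `4 K (R+2)` are fine -/
lemma lt_two_pow_W {n W e : ℕ} (h : WB n ≤ W) (he : e ≤ 4 * Kv n * (Rv n + 2) + n * n + 7) :
    2 ^ e < 2 ^ W := Nat.pow_lt_pow_right (by norm_num) (by unfold WB at h; omega)

lemma R_lt_W {n W : ℕ} (h : WB n ≤ W) : Rv n + 2 < 2 ^ W := by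
  have h1 : Rv n + 2 ≤ 4 * Kv n * (Rv n + 2) := by
    have : 1 ≤ 4 * Kv n := by unfold Kv; omega
    nlinarith
  have h2 : Rv n + 2 < 2 ^ (Rv n + 2) := Nat.lt_two_pow_self
  exact lt_of_lt_of_le h2 (Nat.pow_le_pow_right (by norm_num) (by unfold WB at h; omega))

lemma onR (h : ∀ n W x, D n W x → WB n ≤ W) : OnD D (fun n _ _ => Rv n) :=
  (OnD.const RI RI_cl (fun n W x hx => by
    rw [RI_ev]; have := R_lt_W (h n W x hx); omega)).congr fun n W x _ => RI_ev n W []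

lemma onK (h : ∀ n W x, D n W x → WB n ≤ W) : OnD D (fun n _ _ => Kv n) :=
  (OnD.const KI KI_cl (fun n W x hx => by
    rw [KI_ev]
    calc Kv n < 2 ^ Kv n := Nat.lt_two_pow_self
      _ ≤ 2 ^ W := Nat.pow_le_pow_right (by norm_num) (by
        have := h n W x hx; unfold WB at this
        have h3 : Kv n ≤ 4 * Kv n * (Rv n + 2) := by nlinarith
        omega))).congr fun n W x _ => KI_ev n W []

lemma onn (h : ∀ n W x, D n W x → WB n ≤ W) : OnD D (fun n _ _ => n) :=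
  (OnD.const .n (fun _ _ _ => rfl) (fun n W x hx => by
    show n < 2 ^ W
    calc n < 2 ^ n := Nat.lt_two_pow_self
      _ ≤ 2 ^ W := Nat.pow_le_pow_right (by norm_num) (by
        have := h n W x hx; unfold WB at this; nlinarith))).congr fun n W x _ => rfl

/-- `2 ^ (K * i)` for `i ≤ 2R + 2` -/
lemma onPow {i : ℕ → ℕ → (Fin k → ℕ) → ℕ} (h : ∀ n W x, D n W x → WB n ≤ W) (hi : OnD D i)
    (hib : ∀ n W x, D n W x → i n W x ≤ 2 * (Rv n + 2)) :
    OnD D (fun n W x => 2 ^ (Kv n * i n W x)) := by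
  have hKi : ∀ n W x, D n W x → Kv n * i n W x ≤ 4 * Kv n * (Rv n + 2) := by
    intro n W x hx
    calc Kv n * i n W x ≤ Kv n * (2 * (Rv n + 2)) := Nat.mul_le_mul_left _ (hib n W x hx)
      _ ≤ 4 * Kv n * (Rv n + 2) := by nlinarith [Nat.zero_le (Kv n * (Rv n + 2))]
  refine (OnD.shl (OnD.one (W_pos h)) (OnD.mul (onK h) hi ?_) ?_).congr fun n W x _ => one_mul _
  · intro n W x hx
    calc Kv n * i n W x < 2 ^ (Kv n * i n W x) := Nat.lt_two_pow_self
      _ ≤ 2 ^ W := (lt_two_pow_W (h n W x hx) (by have := hKi n W x hx; omega)).le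
  · intro n W x hx
    rw [one_mul]
    exact lt_two_pow_W (h n W x hx) (by have := hKi n W x hx; omega)

lemma onDig {F i : ℕ → ℕ → (Fin k → ℕ) → ℕ} (h : ∀ n W x, D n W x → WB n ≤ W) (hF : OnD D F)
    (hi : OnD D i) (hib : ∀ n W x, D n W x → i n W x ≤ 2 * (Rv n + 2)) :
    OnD D (fun n W x => dig (Kv n) (F n W x) (i n W x)) := by
  have h1 : OnD D (fun n W _ => 2 ^ (Kv n * 1)) := onPow h (OnD.one (W_pos h)) (by
    intro n W x _; omega)
  exact (OnD.mod (OnD.div hF (onPow h hi hib)) h1).congr fun n W x _ => by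
    rw [mul_one]; rfl

end

/-- domain for packed polynomial arithmetic: `y = (v, r, ...)` -/
def Dvr (n W v r : ℕ) : Prop := WB n ≤ W ∧ v < 2 ^ n ∧ 1 ≤ v ∧ 1 ≤ r ∧ r ≤ Rv n

/-- the folded digit sum -/
lemma foldl_pack (K N r : ℕ) (f : ℕ → ℕ) (hr : r ≤ N) :
    (List.range N).foldl (fun acc i => if i < r then acc + f i * 2 ^ (K * i) else acc) 0
      = pack K r f := by
  induction N with
  | zero =>
    have : r = 0 := by omega
    subst this; rfl
  | succ N ih =>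
    rw [List.range_succ, List.foldl_append, List.foldl_cons, List.foldl_nil]
    rcases Nat.lt_or_ge N r with h | h
    · have hr' : r = N + 1 := by omega
      rw [if_pos h]
      subst hr'
      have key : ∀ M ≤ N, (List.range M).foldl
          (fun acc i => if i < N + 1 then acc + f i * 2 ^ (K * i) else acc) 0 = pack K M f := by
        intro M
        induction M with
        | zero => intro _; rfl
        | succ M ih2 =>
          intro hM
          rw [List.range_succ, List.foldl_append, List.foldl_cons, List.foldl_nil,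
            ih2 (by omega), if_pos (by omega)]
          rw [pack, pack, sum_range_succ]
      rw [key N le_rfl, pack, pack, sum_range_succ]
    · rw [if_neg (by omega)]
      exact ih h

/-- one reduction `P ↦ P mod (v, X^r - 1)`, arguments `(v, r, P)` -/
lemma onRed : OnD (k := 3) (fun n W y => Dvr n W (y 0) (y 1))
    (fun n _ y => pack (Kv n) (y 1)
      (fun i => (dig (Kv n) (y 2) i + dig (Kv n) (y 2) (i + y 1)) % (y 0))) := by
  have hfold := OnD.fold (k := 3) (D := fun n W y => Dvr n W (y 0) (y 1)) RI RI_cl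
    (F := fun n _ i acc y => if i < y 1 then
      acc + ((dig (Kv n) (y 2) i + dig (Kv n) (y 2) (i + y 1)) % (y 0)) * 2 ^ (Kv n * i) else acc)
    (I := fun n W i acc y => Dvr n W (y 0) (y 1) ∧ acc < 2 ^ (Kv n * i))
    (init := fun _ _ _ => 0) (by
      have hW : ∀ n W (y : Fin 5 → ℕ), (y 0 < RI.ev n W [] ∧ Dvr n W (y 2) (y 3) ∧
          y 1 < 2 ^ (Kv n * y 0)) → WB n ≤ W := fun n W y h => h.2.1.1
      have hlt : OnD (k := 5) (fun n W y => y 0 < RI.ev n W [] ∧ Dvr n W (y 2) (y 3) ∧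
          y 1 < 2 ^ (Kv n * y 0)) (fun n W y => if y 0 < y 3 then 1 else 0) :=
        OnD.lt (OnD.proj 0) (OnD.proj 3)
      refine OnD.ite (p := fun n W (y : Fin 5 → ℕ) => y 0 < y 3) hlt ?_ (OnD.proj 1)
      have hK2 : ∀ n : ℕ, ∀ v, v < 2 ^ n → v < 2 ^ Kv n := fun n v hv =>
        lt_trans hv (Nat.pow_lt_pow_right (by norm_num) (n_lt_K n))
      refine OnD.add (OnD.proj 1) (OnD.mul (OnD.mod (OnD.add
        (onDig (fun n W y h => h.1.2.1.1) (OnD.proj 4) (OnD.proj 0) ?_)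
        (onDig (fun n W y h => h.1.2.1.1) (OnD.proj 4) (OnD.add (OnD.proj 0) (OnD.proj 3) ?_) ?_)
        ?_) (OnD.proj 2)) (onPow (fun n W y h => h.1.2.1.1) (OnD.proj 0) ?_) ?_) ?_
      · rintro n W y ⟨⟨h1, h2, h3⟩, h4⟩
        rw [RI_ev] at h1
        show y 0 ≤ 2 * (Rv n + 2)
        omega
      · rintro n W y ⟨⟨h1, h2, h3⟩, h4⟩
        rw [RI_ev] at h1
        have h5 : y 3 ≤ Rv n := h2.2.2.2.2
        have h6 : Rv n + 2 < 2 ^ W := R_lt_W h2.1
        have h7 : 2 * (Rv n + 2) < 2 ^ W := by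
          have : 2 * (Rv n + 2) < 2 ^ (2 * (Rv n + 2)) := Nat.lt_two_pow_self
          refine lt_of_lt_of_le this (Nat.pow_le_pow_right (by norm_num) ?_)
          have h8 := h2.1
          have h9 : 1 ≤ Kv n := by unfold Kv; omega
          unfold WB at h8; nlinarith
        show y 0 + y 3 < 2 ^ W
        omega
      · rintro n W y ⟨⟨h1, h2, h3⟩, h4⟩
        rw [RI_ev] at h1
        have h5 : y 3 ≤ Rv n := h2.2.2.2.2
        show y 0 + y 3 ≤ 2 * (Rv n + 2)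
        omega
      · rintro n W y ⟨⟨h1, h2, h3⟩, h4⟩
        have hd : ∀ F i, dig (Kv n) F i < 2 ^ Kv n := fun F i => Nat.mod_lt _ (by positivity)
        have h5 := hd (y 4) (y 0)
        have h6 := hd (y 4) (y 0 + y 3)
        have h7 : 2 ^ (Kv n + 1) < 2 ^ W := lt_two_pow_W h2.1 (by
          have : 1 ≤ Kv n := by unfold Kv; omega
          nlinarith)
        rw [pow_succ] at h7
        show dig (Kv n) (y 4) (y 0) + dig (Kv n) (y 4) (y 0 + y 3) < 2 ^ W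
        omega
      · rintro n W y ⟨⟨h1, h2, h3⟩, h4⟩
        rw [RI_ev] at h1
        show y 0 ≤ 2 * (Rv n + 2)
        omega
      · rintro n W y ⟨⟨h1, h2, h3⟩, h4⟩
        rw [RI_ev] at h1
        have h5 : (dig (Kv n) (y 4) (y 0) + dig (Kv n) (y 4) (y 0 + y 3)) % y 2 < 2 ^ Kv n :=
          lt_trans (Nat.mod_lt _ h2.2.2.1) (hK2 n _ h2.2.1)
        calc (dig (Kv n) (y 4) (y 0) + dig (Kv n) (y 4) (y 0 + y 3)) % y 2 * 2 ^ (Kv n * y 0)
            < 2 ^ Kv n * 2 ^ (Kv n * y 0) := Nat.mul_lt_mul_of_pos_right h5 (by positivity)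
          _ = 2 ^ (Kv n * (y 0 + 1)) := by rw [← pow_add]; congr 1; ring
          _ < 2 ^ W := lt_two_pow_W h2.1 (by
            have : Kv n * (y 0 + 1) ≤ Kv n * (Rv n + 2) := Nat.mul_le_mul_left _ (by omega)
            nlinarith)
      · rintro n W y ⟨⟨h1, h2, h3⟩, h4⟩
        rw [RI_ev] at h1
        have h5 : (dig (Kv n) (y 4) (y 0) + dig (Kv n) (y 4) (y 0 + y 3)) % y 2 + 1 ≤ 2 ^ Kv n :=
          lt_trans (Nat.mod_lt _ h2.2.2.1) (hK2 n _ h2.2.1)
        have h6 : ((dig (Kv n) (y 4) (y 0) + dig (Kv n) (y 4) (y 0 + y 3)) % y 2 + 1)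
            * 2 ^ (Kv n * y 0) ≤ 2 ^ (Kv n * (y 0 + 1)) := by
          rw [Nat.mul_add, mul_one, pow_add, mul_comm (2 ^ (Kv n * y 0))]
          exact Nat.mul_le_mul_right _ h5
        have h7 : 2 ^ (Kv n * (y 0 + 1)) < 2 ^ W := lt_two_pow_W h2.1 (by
            have : Kv n * (y 0 + 1) ≤ Kv n * (Rv n + 2) := Nat.mul_le_mul_left _ (by omega)
            nlinarith)
        have h8 : y 1 < 2 ^ (Kv n * y 0) := h3
        have h9 : ((dig (Kv n) (y 4) (y 0) + dig (Kv n) (y 4) (y 0 + y 3)) % y 2 + 1)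
            * 2 ^ (Kv n * y 0) = (dig (Kv n) (y 4) (y 0) + dig (Kv n) (y 4) (y 0 + y 3)) % y 2
            * 2 ^ (Kv n * y 0) + 2 ^ (Kv n * y 0) := by ring
        show y 1 + (dig (Kv n) (y 4) (y 0) + dig (Kv n) (y 4) (y 0 + y 3)) % y 2
            * 2 ^ (Kv n * y 0) < 2 ^ W
        omega)
    (by
      intro n W x hx
      rw [RI_ev]; have := R_lt_W hx.1; omega)
    OnD.zero
    (by intro n W x hx; exact ⟨hx, by positivity⟩)
    (by
      rintro n W x i a hi ⟨h1, h2⟩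
      refine ⟨h1, ?_⟩
      have h3 : 2 ^ (Kv n * (i + 1)) = 2 ^ Kv n * 2 ^ (Kv n * i) := by
        rw [← pow_add]; congr 1; ring
      have hpos : 1 ≤ 2 ^ Kv n := Nat.one_le_two_pow
      split_ifs with h
      · have h5 : (dig (Kv n) (x 2) i + dig (Kv n) (x 2) (i + x 1)) % x 0 + 1 ≤ 2 ^ Kv n :=
          lt_trans (Nat.mod_lt _ h1.2.2.1)
            (lt_trans h1.2.1 (Nat.pow_lt_pow_right (by norm_num) (n_lt_K n)))
        rw [h3]
        calc _ < 2 ^ (Kv n * i) + (dig (Kv n) (x 2) i + dig (Kv n) (x 2) (i + x 1)) % x 0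
              * 2 ^ (Kv n * i) := by omega
          _ = ((dig (Kv n) (x 2) i + dig (Kv n) (x 2) (i + x 1)) % x 0 + 1) * 2 ^ (Kv n * i) := by
              ring
          _ ≤ _ := Nat.mul_le_mul_right _ h5
      · rw [h3]
        nlinarith [Nat.zero_le (2 ^ (Kv n * i))])
  refine hfold.congr fun n W y hy => ?_
  rw [RI_ev]
  exact foldl_pack (Kv n) (Rv n) (y 1) _ hy.2.2.2.2

lemma pm_lt {n v r F G : ℕ} (hv : v < 2 ^ n) (hv1 : 1 ≤ v) :
    pm v r (Kv n) F G < 2 ^ (Kv n * r) := by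
  apply pack_lt
  intro i _
  exact lt_trans (Nat.mod_lt _ hv1) (lt_trans hv (Nat.pow_lt_pow_right (by norm_num) (n_lt_K n)))

/-- product of packed polynomials, arguments `(v, r, F, G)` -/
lemma onPm : OnD (k := 4) (fun n W y => Dvr n W (y 0) (y 1) ∧ y 2 < 2 ^ (Kv n * y 1) ∧
      y 3 < 2 ^ (Kv n * y 1)) (fun n _ y => pm (y 0) (y 1) (Kv n) (y 2) (y 3)) := by
  have h := OnD.comp (D := fun n W (y : Fin 4 → ℕ) => Dvr n W (y 0) (y 1) ∧
      y 2 < 2 ^ (Kv n * y 1) ∧ y 3 < 2 ^ (Kv n * y 1)) onRed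
    (f := ![fun _ _ y => y 0, fun _ _ y => y 1, fun _ _ y => y 2 * y 3]) (by
      intro i
      fin_cases i
      · exact OnD.proj 0
      · exact OnD.proj 1
      · refine OnD.mul (OnD.proj 2) (OnD.proj 3) ?_
        rintro n W y ⟨h1, h2, h3⟩
        calc y 2 * y 3 ≤ 2 ^ (Kv n * y 1) * 2 ^ (Kv n * y 1) := Nat.mul_le_mul h2.le h3.le
          _ = 2 ^ (Kv n * y 1 + Kv n * y 1) := by rw [pow_add]
          _ < 2 ^ W := lt_two_pow_W h1.1 (by
            have h5 : Kv n * y 1 ≤ Kv n * (Rv n + 2) := Nat.mul_le_mul_left _ (by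
              have := h1.2.2.2.2; omega)
            nlinarith)) (by
      rintro n W y ⟨h1, h2, h3⟩
      exact h1)
  exact h

/-- one step of the power loop on `(res, base, m, v, r)` -/
def pwF (n : ℕ) (s : Fin 5 → ℕ) : Fin 5 → ℕ :=
  ![if s 2 % 2 = 1 then pm (s 3) (s 4) (Kv n) (s 0) (s 1) else s 0,
    pm (s 3) (s 4) (Kv n) (s 1) (s 1), s 2 / 2, s 3, s 4]

lemma onPw : OnD (k := 3) (fun n W y => Dvr n W (y 0) (y 1) ∧ 2 ≤ y 1 ∧ y 2 < y 1)
    (fun n _ y => pw (y 0) (y 1) (Kv n) n (y 2)) := by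
  have hiter := OnD.iter (k := 5)
    (D := fun n W (s : Fin 5 → ℕ) => Dvr n W (s 3) (s 4) ∧ s 0 < 2 ^ (Kv n * s 4) ∧
      s 1 < 2 ^ (Kv n * s 4)) .n (fun _ _ _ => rfl)
    (F := fun n _ _ s => pwF n s)
    (I := fun n W _ s => Dvr n W (s 3) (s 4) ∧ s 0 < 2 ^ (Kv n * s 4) ∧
      s 1 < 2 ^ (Kv n * s 4)) (by
      intro j
      have h1W : ∀ n W (y : Fin 6 → ℕ), (y 0 < Ix.n.ev n W [] ∧ Dvr n W (y 4) (y 5) ∧
        y 1 < 2 ^ (Kv n * y 5) ∧ y 2 < 2 ^ (Kv n * y 5)) → 1 ≤ W := by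
        rintro n W y ⟨_, h, _⟩
        have := h.1
        unfold WB at this; omega
      fin_cases j
      · refine OnD.ite (p := fun n W (y : Fin 6 → ℕ) => y 3 % 2 = 1) ?_ ?_ (OnD.proj 1)
        · refine OnD.tEq h1W (OnD.mod (OnD.proj 3) (OnD.lit 2 ?_)) (OnD.one h1W)
          rintro n W y ⟨_, h, _⟩
          have h5 := h.1
          calc 2 = 2 ^ 1 := rfl
            _ < 2 ^ W := Nat.pow_lt_pow_right (by norm_num) (by unfold WB at h5; omega)
        · exact OnD.comp (l := 4) onPm (f := ![fun _ _ y => y 4, fun _ _ y => y 5,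
            fun _ _ y => y 1, fun _ _ y => y 2]) (by
            intro i
            fin_cases i
            · exact OnD.proj 4
            · exact OnD.proj 5
            · exact OnD.proj 1
            · exact OnD.proj 2) (by
            rintro n W y ⟨⟨_, h1, h2, h3⟩, _⟩
            exact ⟨h1, h2, h3⟩)
      · exact OnD.comp (l := 4) onPm (f := ![fun _ _ y => y 4, fun _ _ y => y 5,
            fun _ _ y => y 2, fun _ _ y => y 2]) (by
            intro i
            fin_cases i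
            · exact OnD.proj 4
            · exact OnD.proj 5
            · exact OnD.proj 2
            · exact OnD.proj 2) (by
            rintro n W y ⟨_, h1, h2, h3⟩
            exact ⟨h1, h3, h3⟩)
      · refine OnD.div (OnD.proj 3) (OnD.lit 2 ?_)
        rintro n W y ⟨_, h, _⟩
        have h5 := h.1
        calc 2 = 2 ^ 1 := rfl
          _ < 2 ^ W := Nat.pow_lt_pow_right (by norm_num) (by unfold WB at h5; omega)
      · exact OnD.proj 4
      · exact OnD.proj 5)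
    (by
      rintro n W x ⟨h, _⟩
      show n ≤ 2 ^ W
      have h5 := h.1
      calc n ≤ 2 ^ n := Nat.lt_two_pow_self.le
        _ ≤ 2 ^ W := Nat.pow_le_pow_right (by norm_num) (by unfold WB at h5; nlinarith))
    (fun n W x h => h)
    (by
      rintro n W i s _ ⟨h1, h2, h3⟩
      refine ⟨h1, ?_, ?_⟩
      · show (if s 2 % 2 = 1 then pm (s 3) (s 4) (Kv n) (s 0) (s 1) else s 0) < 2 ^ (Kv n * s 4)
        split_ifs
        · exact pm_lt h1.2.1 h1.2.2.1
        · exact h2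
      · exact pm_lt h1.2.1 h1.2.2.1) 0
  have h := OnD.comp (D := fun n W (y : Fin 3 → ℕ) => Dvr n W (y 0) (y 1) ∧ 2 ≤ y 1 ∧ y 2 < y 1)
    hiter (f := ![fun _ _ _ => 1, fun n _ y => y 2 + 2 ^ Kv n, fun _ _ y => y 0,
      fun _ _ y => y 0, fun _ _ y => y 1]) (by
      have hWB : ∀ n W (y : Fin 3 → ℕ), (Dvr n W (y 0) (y 1) ∧ 2 ≤ y 1 ∧ y 2 < y 1) →
        WB n ≤ W := fun n W y h => h.1.1
      intro i
      fin_cases i
      · exact OnD.one (W_pos hWB)
      · refine OnD.add (OnD.proj 2) ((onPow hWB (OnD.one (W_pos hWB)) ?_).congr ?_) ?_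
        · intro n W y _; omega
        · intro n W y _; rw [mul_one]
        · rintro n W y ⟨h1, h2, h3⟩
          have h5 := Rv_lt n
          have h6 : y 1 ≤ Rv n := h1.2.2.2.2
          have h7 : 2 ^ (Kv n + 1) < 2 ^ W := lt_two_pow_W h1.1 (by
            have : 1 ≤ Kv n := by unfold Kv; omega
            nlinarith)
          rw [pow_succ] at h7
          omega
      · exact OnD.proj 0
      · exact OnD.proj 0
      · exact OnD.proj 1) (by
      rintro n W y ⟨h1, h2, h3⟩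
      have h5 := Rv_lt n
      have h6 : y 1 ≤ Rv n := h1.2.2.2.2
      have hK1 : 1 ≤ Kv n := by unfold Kv; omega
      have h8 : 2 ^ (Kv n + 1) ≤ 2 ^ (Kv n * y 1) := Nat.pow_le_pow_right (by norm_num) (by
        nlinarith)
      refine ⟨h1, ?_, ?_⟩
      · show 1 < 2 ^ (Kv n * y 1)
        calc 1 < 2 ^ (Kv n + 1) := Nat.one_lt_two_pow (by omega)
          _ ≤ _ := h8
      · show y 2 + 2 ^ Kv n < 2 ^ (Kv n * y 1)
        rw [pow_succ] at h8
        omega)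
  refine h.congr fun n W y _ => ?_
  have key : ∀ m, (List.range m).foldl (fun s _ => pwF n s)
      ![1, y 2 + 2 ^ Kv n, y 0, y 0, y 1]
      = ![((pwStep (y 0) (y 1) (Kv n))^[m] (1, y 2 + 2 ^ Kv n, y 0)).1,
          ((pwStep (y 0) (y 1) (Kv n))^[m] (1, y 2 + 2 ^ Kv n, y 0)).2.1,
          ((pwStep (y 0) (y 1) (Kv n))^[m] (1, y 2 + 2 ^ Kv n, y 0)).2.2, y 0, y 1] := by
    intro m
    induction m with
    | zero => rfl
    | succ m ih =>
      rw [List.range_succ, List.foldl_append, List.foldl_cons, List.foldl_nil, ih,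
        Function.iterate_succ_apply']
      rfl
  have h0 : (fun i => (![fun _ _ _ => 1, fun n _ y => y 2 + 2 ^ Kv n, fun _ _ y => y 0,
      fun _ _ y => y 0, fun _ _ y => y 1] : Fin 5 → ℕ → ℕ → (Fin 3 → ℕ) → ℕ) i n W y)
      = ![1, y 2 + 2 ^ Kv n, y 0, y 0, y 1] := by
    funext i
    fin_cases i <;> rfl
  rw [h0]
  show (List.range n).foldl (fun s _ => pwF n s) ![1, y 2 + 2 ^ Kv n, y 0, y 0, y 1] 0 = _
  rw [key n]
  rfl

/-- small powers, arguments `(z, k)` -/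
lemma onPowSmall : OnD (k := 2) (fun n W y => WB n ≤ W ∧ y 0 ≤ 2 ^ n ∧ y 1 ≤ n)
    (fun _ _ y => y 0 ^ y 1) := by
  have hfold := OnD.fold (k := 2) (D := fun n W y => WB n ≤ W ∧ y 0 ≤ 2 ^ n ∧ y 1 ≤ n)
    .n (fun _ _ _ => rfl)
    (F := fun _ _ i acc y => if i < y 1 then acc * y 0 else acc)
    (I := fun n W i acc y => (WB n ≤ W ∧ y 0 ≤ 2 ^ n) ∧ acc ≤ 2 ^ (n * i))
    (init := fun _ _ _ => 1) (by
      refine OnD.ite (p := fun n W (y : Fin 4 → ℕ) => y 0 < y 3) (OnD.lt (OnD.proj 0) (OnD.proj 3))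
        (OnD.mul (OnD.proj 1) (OnD.proj 2) ?_) (OnD.proj 1)
      rintro n W y ⟨⟨h1, ⟨h2, h3⟩, h4⟩, _⟩
      have h1' : y 0 < n := h1
      have h3' : y 2 ≤ 2 ^ n := h3
      have h4' : y 1 ≤ 2 ^ (n * y 0) := h4
      show y 1 * y 2 < 2 ^ W
      calc y 1 * y 2 ≤ 2 ^ (n * y 0) * 2 ^ n := Nat.mul_le_mul h4' h3'
        _ = 2 ^ (n * (y 0 + 1)) := by rw [← pow_add]; congr 1
        _ < 2 ^ W := lt_two_pow_W h2 (by
          have : n * (y 0 + 1) ≤ n * n := Nat.mul_le_mul_left _ (by omega)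
          omega))
    (by
      rintro n W x ⟨h5, _⟩
      show n ≤ 2 ^ W
      calc n ≤ 2 ^ n := Nat.lt_two_pow_self.le
        _ ≤ 2 ^ W := Nat.pow_le_pow_right (by norm_num) (by unfold WB at h5; nlinarith))
    (OnD.one (W_pos (fun n W y h => h.1)))
    (by rintro n W x ⟨h1, h2, h3⟩; exact ⟨⟨h1, h2⟩, by simp⟩)
    (by
      rintro n W x i a hi ⟨⟨h1, h2⟩, h3⟩
      refine ⟨⟨h1, h2⟩, ?_⟩
      have h4 : 2 ^ (n * (i + 1)) = 2 ^ (n * i) * 2 ^ n := by rw [← pow_add]; congr 1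
      rw [h4]
      split_ifs
      · exact Nat.mul_le_mul h3 h2
      · calc a ≤ 2 ^ (n * i) := h3
          _ ≤ _ := Nat.le_mul_of_pos_right _ (by positivity))
  refine hfold.congr fun n W y hy => ?_
  have key : ∀ m, (List.range m).foldl (fun acc i => if i < y 1 then acc * y 0 else acc) 1
      = y 0 ^ (min m (y 1)) := by
    intro m
    induction m with
    | zero => simp
    | succ m ih =>
      rw [List.range_succ, List.foldl_append, List.foldl_cons, List.foldl_nil, ih]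
      split_ifs with h
      · rw [← pow_succ]; congr 1; omega
      · congr 1; omega
  show (List.range n).foldl (fun acc i => if i < y 1 then acc * y 0 else acc) 1 = _
  rw [key n, Nat.min_eq_right hy.2.2]

/-- `k`-th roots, arguments `(v, k)` -/
lemma onRt : OnD (k := 2) (fun n W y => WB n ≤ W ∧ y 0 < 2 ^ n ∧ y 1 ≤ n)
    (fun n _ y => rt (y 0) (y 1) n) := by
  have hfold := OnD.fold (k := 2) (D := fun n W y => WB n ≤ W ∧ y 0 < 2 ^ n ∧ y 1 ≤ n)
    .n (fun _ _ _ => rfl)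
    (F := fun n _ i acc y => rtStep (y 0) (y 1) acc (n - 1 - i))
    (I := fun n W i acc y => (WB n ≤ W ∧ y 0 < 2 ^ n ∧ y 1 ≤ n) ∧ acc + 2 ^ (n - i) ≤ 2 ^ n)
    (init := fun _ _ _ => 0) (by
      have hWB : ∀ n W (y : Fin 4 → ℕ), (y 0 < Ix.n.ev n W [] ∧ (WB n ≤ W ∧ y 2 < 2 ^ n ∧ y 3 ≤ n) ∧
        y 1 + 2 ^ (n - y 0) ≤ 2 ^ n) → WB n ≤ W := fun n W y h => h.2.1.1
      have hadd : OnD (k := 4) (fun n W y => y 0 < Ix.n.ev n W [] ∧
          (WB n ≤ W ∧ y 2 < 2 ^ n ∧ y 3 ≤ n) ∧ y 1 + 2 ^ (n - y 0) ≤ 2 ^ n)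
          (fun n W y => y 1 + 2 ^ (n - 1 - y 0)) := by
        have hexp : ∀ n W (y : Fin 4 → ℕ), (y 0 < Ix.n.ev n W [] ∧
          (WB n ≤ W ∧ y 2 < 2 ^ n ∧ y 3 ≤ n) ∧ y 1 + 2 ^ (n - y 0) ≤ 2 ^ n) →
          y 1 + 2 ^ (n - 1 - y 0) ≤ 2 ^ n ∧ 2 ^ n < 2 ^ W := by
          rintro n W y ⟨h1, ⟨h2, h3, h4⟩, h5⟩
          have h1' : y 0 < n := h1
          have h6 : 2 ^ (n - y 0) = 2 ^ (n - 1 - y 0) + 2 ^ (n - 1 - y 0) := by
            have : n - y 0 = (n - 1 - y 0) + 1 := by omega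
            rw [this, pow_succ]; ring
          have h7 : 0 < 2 ^ (n - 1 - y 0) := by positivity
          exact ⟨by omega, lt_two_pow_W h2 (by nlinarith)⟩
        refine OnD.add (OnD.proj 1) ((OnD.shl (OnD.one (W_pos hWB))
          (OnD.sub (OnD.sub (onn hWB) (OnD.one (W_pos hWB))) (OnD.proj 0)) ?_).congr ?_) ?_
        · intro n W y hy
          rw [one_mul]
          have := hexp n W y hy
          omega
        · intro n W y _; rw [one_mul]
        · intro n W y hy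
          have := hexp n W y hy
          omega
      have hpow : OnD (k := 4) (fun n W y => y 0 < Ix.n.ev n W [] ∧
          (WB n ≤ W ∧ y 2 < 2 ^ n ∧ y 3 ≤ n) ∧ y 1 + 2 ^ (n - y 0) ≤ 2 ^ n)
          (fun n W y => (y 1 + 2 ^ (n - 1 - y 0)) ^ y 3) :=
        OnD.comp (l := 2) onPowSmall (f := ![fun n _ y => y 1 + 2 ^ (n - 1 - y 0),
          fun _ _ y => y 3]) (by
          intro i
          fin_cases i
          · exact hadd
          · exact OnD.proj 3) (by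
          rintro n W y ⟨h1, ⟨h2, h3, h4⟩, h5⟩
          have h1' : y 0 < n := h1
          have h6 : 2 ^ (n - y 0) = 2 ^ (n - 1 - y 0) + 2 ^ (n - 1 - y 0) := by
            have : n - y 0 = (n - 1 - y 0) + 1 := by omega
            rw [this, pow_succ]; ring
          refine ⟨h2, ?_, h4⟩
          have h7 : 0 < 2 ^ (n - 1 - y 0) := by positivity
          show y 1 + 2 ^ (n - 1 - y 0) ≤ 2 ^ n
          omega)
      exact OnD.ite (p := fun n W (y : Fin 4 → ℕ) => (y 1 + 2 ^ (n - 1 - y 0)) ^ y 3 ≤ y 2)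
        (OnD.tLe (W_pos hWB) hpow (OnD.proj 2)) (hadd.mono fun n W y h => h.1) (OnD.proj 1))
    (by
      rintro n W x ⟨h5, _⟩
      show n ≤ 2 ^ W
      calc n ≤ 2 ^ n := Nat.lt_two_pow_self.le
        _ ≤ 2 ^ W := Nat.pow_le_pow_right (by norm_num) (by unfold WB at h5; nlinarith))
    OnD.zero
    (by rintro n W x h; exact ⟨h, by simp⟩)
    (by
      rintro n W x i a hi ⟨h1, h2⟩
      refine ⟨h1, ?_⟩
      have hi' : i < n := hi
      have h6 : 2 ^ (n - i) = 2 ^ (n - 1 - i) + 2 ^ (n - 1 - i) := by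
        have : n - i = (n - 1 - i) + 1 := by omega
        rw [this, pow_succ]; ring
      have h7 : n - (i + 1) = n - 1 - i := by omega
      rw [h7]
      have h8 : 0 < 2 ^ (n - 1 - i) := by positivity
      unfold rtStep
      split_ifs <;> omega)
  exact hfold

def R1I : Ix := .add RI (.lit 1)
lemma R1I_cl : R1I.Cl := fun _ _ _ => rfl
lemma R1I_ev (n W : ℕ) (e : List ℕ) : R1I.ev n W e = Rv n + 1 := by
  simp only [R1I, Ix.ev, RI_ev]

section test

variable {k : ℕ} {D : ℕ → ℕ → (Fin k → ℕ) → Prop}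

lemma hR1W (h : ∀ n W x, D n W x → WB n ≤ W) : ∀ n W x, D n W x → R1I.ev n W [] ≤ 2 ^ W := by
  intro n W x hx
  rw [R1I_ev]
  have := R_lt_W (h n W x hx)
  omega

lemma hnW (h : ∀ n W x, D n W x → WB n ≤ W) : ∀ n W x, D n W x → Ix.n.ev n W [] ≤ 2 ^ W := by
  intro n W x hx
  have h5 := h n W x hx
  show n ≤ 2 ^ W
  calc n ≤ 2 ^ n := Nat.lt_two_pow_self.le
    _ ≤ 2 ^ W := Nat.pow_le_pow_right (by norm_num) (by unfold WB at h5; nlinarith)

lemma onTwo (h : ∀ n W x, D n W x → WB n ≤ W) : OnD D (fun _ _ _ => 2) :=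
  OnD.lit 2 (fun n W x hx => by
    have h5 := h n W x hx
    calc 2 = 2 ^ 1 := rfl
      _ < 2 ^ W := Nat.pow_lt_pow_right (by norm_num) (by unfold WB at h5; omega))

end test

/-- domain of the primality function -/
def DP (n W : ℕ) (x : Fin 1 → ℕ) : Prop := WB n ≤ W ∧ x 0 < 2 ^ n

open Classical in
/-- Primality of an `n`-bit number is a word function. -/
theorem isPrime : OnD (k := 1) DP (fun _ _ x => if (x 0).Prime then 1 else 0) := by
  have hWD : ∀ n W (x : Fin 1 → ℕ), DP n W x → WB n ≤ W := fun n W x h => h.1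
  -- no small divisors
  have hP2 : OnD (k := 1) (fun n W x => DP n W x ∧ 2 ≤ x 0)
      (fun n W x => if (∀ d < R1I.ev n W [], 2 ≤ d → d < x 0 → x 0 % d ≠ 0) then 1 else 0) := by
    refine OnD.all R1I R1I_cl (P := fun n W d x => 2 ≤ d → d < x 0 → x 0 % d ≠ 0)
      (W_pos fun n W x h => h.1.1) (hR1W fun n W x h => h.1.1) ?_
    have hW2 : ∀ n W (y : Fin 2 → ℕ), (y 0 < R1I.ev n W [] ∧ (DP n W (Fin.tail y) ∧
      2 ≤ Fin.tail y 0)) → WB n ≤ W := fun n W y h => h.2.1.1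
    refine OnD.tImp (p := fun n W (y : Fin 2 → ℕ) => 2 ≤ y 0) (W_pos hW2)
      (OnD.tLe (W_pos hW2) (onTwo hW2) (OnD.proj 0)) ?_
    refine OnD.tImp (p := fun n W (y : Fin 2 → ℕ) => y 0 < y 1) (W_pos fun n W y h => h.1.2.1.1)
      (OnD.lt (OnD.proj 0) (OnD.proj 1)) ?_
    exact OnD.tNot (p := fun n W (y : Fin 2 → ℕ) => y 1 % y 0 = 0)
      (W_pos fun n W y h => h.1.1.2.1.1)
      (OnD.tEq (W_pos fun n W y h => h.1.1.2.1.1) (OnD.mod (OnD.proj 1) (OnD.proj 0)) OnD.zero)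
  -- not a perfect power
  have hP4 : OnD (k := 1) (fun n W x => DP n W x ∧ 2 ≤ x 0)
      (fun n W x => if (∀ k < Ix.n.ev n W [], 2 ≤ k → rt (x 0) k n ^ k ≠ x 0) then 1 else 0) := by
    refine OnD.all .n (fun _ _ _ => rfl) (P := fun n W k x => 2 ≤ k → rt (x 0) k n ^ k ≠ x 0)
      (W_pos fun n W x h => h.1.1) (hnW fun n W x h => h.1.1) ?_
    have hW2 : ∀ n W (y : Fin 2 → ℕ), (y 0 < Ix.n.ev n W [] ∧ (DP n W (Fin.tail y) ∧
      2 ≤ Fin.tail y 0)) → WB n ≤ W := fun n W y h => h.2.1.1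
    refine OnD.tImp (p := fun n W (y : Fin 2 → ℕ) => 2 ≤ y 0) (W_pos hW2)
      (OnD.tLe (W_pos hW2) (onTwo hW2) (OnD.proj 0)) ?_
    have hrt : OnD (k := 2) (fun n W y => (y 0 < Ix.n.ev n W [] ∧ (DP n W (Fin.tail y) ∧
        2 ≤ Fin.tail y 0)) ∧ 2 ≤ y 0) (fun n W y => rt (y 1) (y 0) n) :=
      OnD.comp (l := 2) onRt (f := ![fun _ _ y => y 1, fun _ _ y => y 0]) (by
        intro i
        fin_cases i
        · exact OnD.proj 1
        · exact OnD.proj 0) (by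
        rintro n W y ⟨⟨h1, h2, h3⟩, h4⟩
        have h1' : y 0 < n := h1
        exact ⟨h2.1, h2.2, h1'.le⟩)
    have hpw : OnD (k := 2) (fun n W y => (y 0 < Ix.n.ev n W [] ∧ (DP n W (Fin.tail y) ∧
        2 ≤ Fin.tail y 0)) ∧ 2 ≤ y 0) (fun n W y => rt (y 1) (y 0) n ^ y 0) :=
      OnD.comp (l := 2) onPowSmall (f := ![fun n _ y => rt (y 1) (y 0) n, fun _ _ y => y 0]) (by
        intro i
        fin_cases i
        · exact hrt
        · exact OnD.proj 0) (by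
        rintro n W y ⟨⟨h1, h2, h3⟩, h4⟩
        have h1' : y 0 < n := h1
        refine ⟨h2.1, ?_, h1'.le⟩
        have h5 := (rt_spec (n := y 1) (k := y 0) (L := n) (by omega) h2.2).1
        have h6 : rt (y 1) (y 0) n ≤ rt (y 1) (y 0) n ^ y 0 := Nat.le_self_pow (by omega) _
        show rt (y 1) (y 0) n ≤ 2 ^ n
        have h7 : y 1 < 2 ^ n := h2.2
        omega)
    exact OnD.tNot (p := fun n W (y : Fin 2 → ℕ) => rt (y 1) (y 0) n ^ y 0 = y 1)
      (W_pos fun n W y h => h.1.2.1.1)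
      (OnD.tEq (W_pos fun n W y h => h.1.2.1.1) hpw (OnD.proj 1))
  -- the congruences
  have hP5 : OnD (k := 1) (fun n W x => DP n W x ∧ 2 ≤ x 0)
      (fun n W x => if (∀ r < R1I.ev n W [], 2 ≤ r → ∀ a < R1I.ev n W [], a < r →
        pw (x 0) r (Kv n) n a = a + 2 ^ (Kv n * (x 0 % r))) then 1 else 0) := by
    refine OnD.all R1I R1I_cl (P := fun n W r x => 2 ≤ r → ∀ a < R1I.ev n W [], a < r →
        pw (x 0) r (Kv n) n a = a + 2 ^ (Kv n * (x 0 % r)))
      (W_pos fun n W x h => h.1.1) (hR1W fun n W x h => h.1.1) ?_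
    have hW2 : ∀ n W (y : Fin 2 → ℕ), (y 0 < R1I.ev n W [] ∧ (DP n W (Fin.tail y) ∧
      2 ≤ Fin.tail y 0)) → WB n ≤ W := fun n W y h => h.2.1.1
    refine OnD.tImp (p := fun n W (y : Fin 2 → ℕ) => 2 ≤ y 0) (W_pos hW2)
      (OnD.tLe (W_pos hW2) (onTwo hW2) (OnD.proj 0)) ?_
    refine OnD.all R1I R1I_cl (P := fun n W a y => a < y 0 →
        pw (Fin.tail y 0) (y 0) (Kv n) n a = a + 2 ^ (Kv n * (Fin.tail y 0 % y 0)))
      (W_pos fun n W x h => h.1.2.1.1) (hR1W fun n W x h => h.1.2.1.1) ?_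
    -- y = (a, r, v)
    refine OnD.tImp (p := fun n W (y : Fin 3 → ℕ) => y 0 < y 1)
      (W_pos fun n W y h => h.2.1.2.1.1) (OnD.lt (OnD.proj 0) (OnD.proj 1)) ?_
    have hdom : ∀ n W (y : Fin 3 → ℕ), ((y 0 < R1I.ev n W [] ∧
        (((Fin.tail y) 0 < R1I.ev n W [] ∧ (DP n W (Fin.tail (Fin.tail y)) ∧
          2 ≤ Fin.tail (Fin.tail y) 0)) ∧ 2 ≤ (Fin.tail y) 0)) ∧ y 0 < y 1) →
        Dvr n W (y 2) (y 1) ∧ 2 ≤ y 1 ∧ y 0 < y 1 := by
      rintro n W y ⟨⟨h1, ⟨h2, h3, h4⟩, h5⟩, h6⟩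
      rw [R1I_ev] at h1 h2
      have h2' : y 1 < Rv n + 1 := h2
      have h4' : 2 ≤ y 2 := h4
      have h5' : 2 ≤ y 1 := h5
      have h7 : y 2 < 2 ^ n := h3.2
      exact ⟨⟨h3.1, h7, by omega, by omega, by omega⟩, h5', h6⟩
    have hWd := fun n W (y : Fin 3 → ℕ) (h : ((y 0 < R1I.ev n W [] ∧
        (((Fin.tail y) 0 < R1I.ev n W [] ∧ (DP n W (Fin.tail (Fin.tail y)) ∧
          2 ≤ Fin.tail (Fin.tail y) 0)) ∧ 2 ≤ (Fin.tail y) 0)) ∧ y 0 < y 1)) =>
        (hdom n W y h).1.1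
    refine OnD.tEq (W_pos hWd) ?_ ?_
    · exact OnD.comp (l := 3) onPw (f := ![fun _ _ y => y 2, fun _ _ y => y 1,
        fun _ _ y => y 0]) (by
        intro i
        fin_cases i
        · exact OnD.proj 2
        · exact OnD.proj 1
        · exact OnD.proj 0) hdom
    · refine OnD.add (OnD.proj 0) (onPow hWd (OnD.mod (OnD.proj 2) (OnD.proj 1)) ?_) ?_
      · intro n W y h
        obtain ⟨h1, h2, h3⟩ := hdom n W y h
        have h4 : y 2 % y 1 < y 1 := Nat.mod_lt _ (by omega)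
        have h5 : y 1 ≤ Rv n := h1.2.2.2.2
        show y 2 % y 1 ≤ 2 * (Rv n + 2)
        omega
      · intro n W y h
        obtain ⟨h1, h2, h3⟩ := hdom n W y h
        have h4 : y 2 % y 1 < y 1 := Nat.mod_lt _ (by omega)
        have h5 : y 1 ≤ Rv n := h1.2.2.2.2
        have h6 := Rv_lt n
        have h7 : 2 ^ (Kv n * (y 2 % y 1)) ≤ 2 ^ (Kv n * (Rv n)) :=
          Nat.pow_le_pow_right (by norm_num) (Nat.mul_le_mul_left _ (by omega))
        have h8 : 2 ^ Kv n ≤ 2 ^ (Kv n * (Rv n)) :=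
          Nat.pow_le_pow_right (by norm_num) (by nlinarith)
        have h9 : 2 ^ (Kv n * (Rv n) + 1) < 2 ^ W := lt_two_pow_W h1.1 (by nlinarith)
        rw [pow_succ] at h9
        show y 0 + 2 ^ (Kv n * (y 2 % y 1)) < 2 ^ W
        omega
  have hall := OnD.tAnd (D := DP) (p := fun n W x => 2 ≤ x 0)
    (q := fun n W x => (∀ d < R1I.ev n W [], 2 ≤ d → d < x 0 → x 0 % d ≠ 0) ∧
      (x 0 ≤ Rv n ∨ ((∀ k < Ix.n.ev n W [], 2 ≤ k → rt (x 0) k n ^ k ≠ x 0) ∧
        (∀ r < R1I.ev n W [], 2 ≤ r → ∀ a < R1I.ev n W [], a < r →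
          pw (x 0) r (Kv n) n a = a + 2 ^ (Kv n * (x 0 % r))))))
    (OnD.tLe (W_pos hWD) (onTwo hWD) (OnD.proj 0))
    (OnD.tAnd (p := fun n W x => (∀ d < R1I.ev n W [], 2 ≤ d → d < x 0 → x 0 % d ≠ 0)) hP2
      (OnD.tOr (p := fun n W x => x 0 ≤ Rv n) (W_pos fun n W x h => h.1.1.1)
        (OnD.tLe (W_pos fun n W x h => h.1.1.1) (OnD.proj 0) (onR fun n W x h => h.1.1.1))
        (OnD.tAnd (p := fun n W x => (∀ k < Ix.n.ev n W [], 2 ≤ k → rt (x 0) k n ^ k ≠ x 0))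
          (hP4.mono fun n W x h => h.1.1) (hP5.mono fun n W x h => h.1.1.1))))
  refine hall.congr fun n W x hx => ?_
  have hiff : (2 ≤ x 0 ∧ (∀ d < R1I.ev n W [], 2 ≤ d → d < x 0 → x 0 % d ≠ 0) ∧
      (x 0 ≤ Rv n ∨ ((∀ k < Ix.n.ev n W [], 2 ≤ k → rt (x 0) k n ^ k ≠ x 0) ∧
        (∀ r < R1I.ev n W [], 2 ≤ r → ∀ a < R1I.ev n W [], a < r →
          pw (x 0) r (Kv n) n a = a + 2 ^ (Kv n * (x 0 % r)))))) ↔ (x 0).Prime := by
    rw [← aksTest_iff (n := x 0) (L := n) (R := Rv n) (K := Kv n) hx.2 le_rfl (RRvv_lt hx.2)]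
    unfold AksTest
    rw [R1I_ev]
    show _ ∧ _ ∧ (_ ∨ (∀ k < n, 2 ≤ k → rt (x 0) k n ^ k ≠ x 0) ∧ _) ↔ _
    refine and_congr_right fun _ => and_congr_right fun _ => or_congr_right
      (and_congr_right fun _ => forall_congr' fun r => ?_)
    refine imp_congr_right fun hr => imp_congr_right fun hr2 => ?_
    constructor
    · intro h a ha
      exact h a (by omega) ha
    · intro h a _ ha
      exact h a ha
  simp only [hiff]

end QF.H7
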